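import Vale.Agent.P286ET5.Inst
import Vale.Agent.P286ET6.Main

/-!
# The pairings
-/

namespace Vale.Agent.P286ET5

open CategoryTheory TensorProduct Vale.Agent.P286ET Vale.Agent.P286ET6 Ix

noncomputable section

variable {T T' : TDat Ix} (g : Mg T T')

/-- The trace in the second variable. -/
def trs (s : Ix) : T.R s ⊗[ℂ] T'.R n →ₗ[ℂ] T.R s :=
  (TensorProduct.rid ℂ (T.R s)).toLinearMap ∘ₗ LinearMap.lTensor _ (trt g).tr

theorem trs_tmul (s : Ix) (x : T.R s) (y : T'.R n) :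
    trs g s (x ⊗ₜ y) = (trt g).tr y • x := rfl

theorem exists_PP (s : Ix) :
    ∃ P : g.S.Q →ₗ[ℂ] T.R s, ∀ ζ, P (g.S.emb s n ζ) = trs g s ζ := by
  obtain ⟨f, hf⟩ := (g.S.emb s n).toLinearMap.exists_leftInverse_of_injective
    (LinearMap.ker_eq_bot.2 (emb_inj g s n))
  exact ⟨trs g s ∘ₗ f, fun ζ => congrArg (trs g s) (LinearMap.congr_fun hf ζ)⟩

/-- The trace in the second variable, on the ring of functions on the square. -/
def PP (s : Ix) : g.S.Q →ₗ[ℂ] T.R s := (exists_PP g s).choose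

theorem PP_emb (s : Ix) (ζ : T.R s ⊗[ℂ] T'.R n) : PP g s (g.S.emb s n ζ) = trs g s ζ :=
  (exists_PP g s).choose_spec ζ

theorem PP_mul (s : Ix) (x : T.R s) (ζ : T.R s ⊗[ℂ] T'.R n) :
    PP g s (g.S.i1 (T.tau (tn s) x) * g.S.emb s n ζ) = x * PP g s (g.S.emb s n ζ) := by
  rw [← emb_left g s n, ← map_mul, PP_emb, PP_emb]
  induction ζ using TensorProduct.induction_on with
  | zero => simp
  | tmul x' y =>
    rw [Algebra.TensorProduct.tmul_mul_tmul, one_mul, trs_tmul, trs_tmul, mul_smul_comm]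
  | add ζ ζ' h h' => rw [mul_add, map_add, map_add, h, h', mul_add]

theorem PP_res {s s' : Ix} (u : s ⟶ s') (ζ : T.R s ⊗[ℂ] T'.R n) :
    PP g s' (g.S.emb s n ζ) = T.tau u (PP g s (g.S.emb s n ζ)) := by
  rw [PP_emb, ← emb_rs g u (𝟙 n), PP_emb]
  induction ζ using TensorProduct.induction_on with
  | zero => simp
  | tmul x y => rw [rs_tmul, trs_tmul, trs_tmul, T'.tau_id, map_smul]
  | add ζ ζ' h h' => simp only [map_add, h, h']

theorem PP_d1 (s : Ix) (ζ : T.R s ⊗[ℂ] T'.R n) :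
    PP g s (g.S.d1 (g.S.emb s n ζ)) = T.dd s (PP g s (g.S.emb s n ζ)) := by
  rw [d1_emb, PP_emb, PP_emb]
  induction ζ using TensorProduct.induction_on with
  | zero => simp
  | tmul x y => rw [dL_tmul, trs_tmul, trs_tmul, Derivation.map_smul]
  | add ζ ζ' h h' => simp only [map_add, h, h']

theorem PP_d2 (s : Ix) (ζ : T.R s ⊗[ℂ] T'.R n) : PP g s (g.S.d2 (g.S.emb s n ζ)) = 0 := by
  rw [d2_emb, PP_emb]
  induction ζ using TensorProduct.induction_on with
  | zero => simp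
  | tmul x y => rw [dR_tmul, trs_tmul, (trt g).tr_dd, zero_smul]
  | add ζ ζ' h h' => rw [map_add, map_add, h, h', add_zero]

theorem PP_w (s : Ix) (ζ : T.R s ⊗[ℂ] T'.R n) :
    PP g s (g.S.w (g.S.emb s n ζ)) = - T.w s (PP g s (g.S.emb s n ζ)) := by
  rw [w_emb, PP_emb, PP_emb]
  induction ζ using TensorProduct.induction_on with
  | zero => simp
  | tmul x y => rw [wB_tmul, trs_tmul, trs_tmul, (trt g).tr_w, map_smul, neg_smul]
  | add ζ ζ' h h' => simp only [map_add, h, h', neg_add]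

theorem PP_zero (s : Ix) {j : Ix} (hj : ∀ r : T'.R j, (trt g).tr (T'.tau (tn j) r) = 0)
    (ζ : T.R s ⊗[ℂ] T'.R j) : PP g s (g.S.emb s j ζ) = 0 := by
  rw [← emb_rs g (𝟙 s) (tn j), PP_emb]
  induction ζ using TensorProduct.induction_on with
  | zero => simp
  | tmul x y => rw [rs_tmul, trs_tmul, hj, zero_smul]
  | add ζ ζ' h h' => rw [map_add, map_add, h, h', add_zero]

theorem PP_trr (s : Ix) (ζ : T.R s ⊗[ℂ] T'.R n) : ∃ ζ', g.S.emb n n ζ' = g.S.emb s n ζ ∧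
    T.tau (tn s) (PP g s (g.S.emb s n ζ)) = trr g ζ' := by
  refine ⟨rs (tn s) (𝟙 n) ζ, emb_rs g _ _ ζ, ?_⟩
  rw [← PP_res g (tn s), ← emb_rs g (tn s) (𝟙 n), PP_emb]
  rfl

section Pr

variable {g} {c c' : ℂ} (A : KD g.S c) (B : KD (sw g.S) c')

/-- The inclusion of the second kernel. -/
def eB (j k : Ix) : (B.bi j k).V →ₗ[ℂ] g.S.Q := B.e j k

/-- The function in the connection of the second kernel. -/
def FB (j k : Ix) : g.S.Q := B.F j k

theorem eB_l (j k : Ix) (y : T'.R j) (l : (B.bi j k).V) :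
    eB B j k (y • l) = g.S.i2 (T'.tau (tn j) y) * eB B j k l := rfl

theorem eB_r (j k : Ix) (x : T.R k) (l : (B.bi j k).V) :
    eB B j k (x • l) = g.S.i1 (T.tau (tn k) x) * eB B j k l := rfl

theorem eB_D (j k : Ix) (l : (B.bi j k).V) : eB B j k (B.D j k l) =
    c' • g.S.d2 (eB B j k l) + g.S.d1 (eB B j k l) + FB B j k * eB B j k l := rfl

theorem eB_w (j k : Ix) (l : (B.bi j k).V) :
    eB B j k (B.w j k l) = B.ε • g.S.w (eB B j k l) := rfl

/-- The pairing. -/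
def pp (i k : Ix) : (A.bi i n).V →ₗ[ℂ] (B.bi n k).V →ₗ[ℂ] T.R (sup i k) :=
  ((LinearMap.mul ℂ g.S.Q).compl₁₂ (A.e i n) (eB B n k)).compr₂ (PP g (sup i k))

theorem pp_apply (i k : Ix) (κ : (A.bi i n).V) (l : (B.bi n k).V) :
    pp A B i k κ l = PP g (sup i k) (A.e i n κ * eB B n k l) := rfl

theorem pp_m (i k : Ix) (y : T'.R n) (κ : (A.bi i n).V) (l : (B.bi n k).V) :
    pp A B i k (y • κ) l = pp A B i k κ (y • l) := by
  rw [pp_apply, pp_apply, A.e_r, eB_l]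
  congr 1
  ring

theorem pp_hp (hm : ∀ i j k κ l, ∃ ζ, g.S.emb (sup i k) j ζ = A.e i j κ * eB B j k l)
    (i k : Ix) (κ : (A.bi i n).V) (l : (B.bi n k).V) :
    ∃ ζ, g.S.emb n n ζ = A.e i n κ * eB B n k l ∧
      T.tau (tn (sup i k)) (pp A B i k κ l) = trr g ζ := by
  obtain ⟨ζ, h⟩ := hm i n k κ l
  rw [pp_apply, ← h]
  exact PP_trr g _ ζ

theorem pair_of (cc : c * c' = 1)
    (hm : ∀ i j k κ l, ∃ ζ, g.S.emb (sup i k) j ζ = A.e i j κ * eB B j k l)
    (hF : ∀ i k, FB B n k + c' • A.F i n = g.S.i1 (T.eta (tn k) - T.eta (tn i)))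
    (hε : A.ε * B.ε = -1)
    (hs : ∀ i k, (∀ (x : XX A.ker B.ker i a k) (y : XX A.ker B.ker i b k),
        xr A.ker B.ker i a k x = xr A.ker B.ker i b k y → x = 0 ∧ y = 0) ∧
      (∀ z : XX A.ker B.ker i n k, tlift (pp A B i k) (pp_m A B i k) z = 0 →
        ∃ (x : XX A.ker B.ker i a k) (y : XX A.ker B.ker i b k),
          z = xr A.ker B.ker i a k x - xr A.ker B.ker i b k y) ∧
      Function.Surjective (tlift (pp A B i k) (pp_m A B i k) : XX A.ker B.ker i n k → _)) :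
    Nonempty (Pair A.ker B.ker) := by
  refine ⟨{
    cc := cc
    p := pp A B
    p_l := fun i k x κ l => ?_
    p_m := pp_m A B
    p_r := fun i k x κ l => ?_
    p_res := fun {i i' k k'} u v κ l => ?_
    p_D := fun i k κ l => ?_
    p_w := fun i k κ l => ?_
    p_a := fun i k κ l => ?_
    p_b := fun i k κ l => ?_
    inj := fun i k => (hs i k).1
    mid := fun i k => (hs i k).2.1
    surj := fun i k => (hs i k).2.2 }⟩
  · obtain ⟨ζ, h⟩ := hm i n k κ l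
    change PP g _ (g.S.i1 (T.tau (tn i) x) * A.e i n κ * eB B n k l) =
      _ * PP g _ (A.e i n κ * eB B n k l)
    rw [mul_assoc, ← h, ← PP_mul, tau_tau]
  · obtain ⟨ζ, h⟩ := hm i n k κ l
    change PP g _ (A.e i n κ * (g.S.i1 (T.tau (tn k) x) * eB B n k l)) =
      _ * PP g _ (A.e i n κ * eB B n k l)
    rw [mul_left_comm, ← h, ← PP_mul, tau_tau]
  · obtain ⟨ζ, h⟩ := hm i n k κ l
    change PP g _ (A.e i n κ * eB B n k l) = T.tau _ (PP g _ (A.e i n κ * eB B n k l))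
    rw [← h, PP_res]
  · obtain ⟨ζ, h⟩ := hm i n k κ l
    change PP g _ (A.e i n κ * eB B n k (B.D n k l)) +
      c' • PP g _ (A.e i n (A.D i n κ) * eB B n k l) + _ * PP g _ (A.e i n κ * eB B n k l) =
      T.dd _ (PP g _ (A.e i n κ * eB B n k l)) + _ * PP g _ (A.e i n κ * eB B n k l)
    have h1 : A.e i n κ * eB B n k (B.D n k l) + c' • (A.e i n (A.D i n κ) * eB B n k l) =
        c' • g.S.d2 (g.S.emb _ n ζ) + g.S.d1 (g.S.emb _ n ζ) +
          g.S.i1 (T.tau (tn _) (T.eta (sr i k) - T.eta (sl i k))) * g.S.emb _ n ζ := by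
      have h2 : algebraMap ℂ g.S.Q c * algebraMap ℂ g.S.Q c' = 1 := by
        rw [← map_mul, cc, map_one]
      rw [map_sub (T.tau _), tau_eta, tau_eta, sub_sub_sub_cancel_right, ← hF, h, eB_D B n k l,
        A.e_D i n κ, Derivation.leibniz, Derivation.leibniz]
      simp only [smul_eq_mul, Algebra.smul_def]
      linear_combination eB B n k l * g.S.d1 (A.e i n κ) * h2
    rw [← map_smul, ← map_add, h1, map_add, map_add, map_smul, PP_d2, PP_d1, PP_mul, ← h]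
    rw [smul_zero]
    ring
  · obtain ⟨ζ, h⟩ := hm i n k κ l
    change PP g _ (A.ε • g.S.w (A.e i n κ) * B.ε • g.S.w (eB B n k l)) =
      T.w _ (PP g _ (A.e i n κ * eB B n k l))
    rw [smul_mul_smul_comm, hε, ← map_mul, ← h, map_smul, PP_w, neg_smul, one_smul, neg_neg]
  · obtain ⟨ζ, h⟩ := hm i a k κ l
    change PP g _ (A.e i a κ * eB B a k l) = 0
    rw [← h, PP_zero g _ (trt g).tr_a]
  · obtain ⟨ζ, h⟩ := hm i b k κ l
    change PP g _ (A.e i b κ * eB B b k l) = 0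
    rw [← h, PP_zero g _ (trt g).tr_b]

end Pr

theorem mul_KI {i j k : Ix} {q q' : g.S.Q} (h : q ∈ KK g i j) (h' : q' ∈ II g k j) :
    ∃ ζ, g.S.emb (sup i k) j ζ = q * q' := by
  obtain ⟨ρ, h⟩ := (KK_res g).1 h
  obtain ⟨ξ, h', rfl⟩ := h'
  exact h.mul_ker h'

theorem mul_IK {i j k : Ix} {q q' : g.S.Q} (h : q ∈ II g i j) (h' : q' ∈ KK g k j) :
    ∃ ζ, g.S.emb (sup i k) j ζ = q * q' := by
  rw [sup_comm', mul_comm]
  exact mul_KI g h' h

/-- The composition of `O(Δ)` with `O(-Δ)`. -/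
theorem pair1 {c c' : ℂ} (cc : c * c' = 1) (hc : c ≠ 0) (hc' : c' ≠ 0)
    (h₁ : ∀ i : Ix, T.eta (tn i) = ((1 - c) / c) • (g.h i - g.h n)) (h₂) (h₃) (h₄) :
    Nonempty (Pair (kdK g c hc h₁ h₂).ker (kdI (mt g) c' hc' h₃ h₄).ker) := by
  let A := kdK g c hc h₁ h₂
  let B : KD (sw g.S) c' := kdI (mt g) c' hc' h₃ h₄
  have hm : ∀ i j k κ l, ∃ ζ, g.S.emb (sup i k) j ζ = A.e i j κ * eB B j k l :=
    fun i j k κ l => mul_KI g (A.e_mem i j κ) ((II_mt g).1 (B.e_mem j k l))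
  refine pair_of A B cc hm (fun i k => ?_) (one_mul _) fun i k =>
    snake1 g A.ker B.ker A.e (eB B) A.e_inj B.e_inj A.e_r (eB_l B) (fun _ _ _ => rfl)
      (fun _ _ _ => rfl) A.e_range (fun j k q => (B.e_range j k q).trans (II_mt g)) i k
      (pp A B i k) (pp_m A B i k) (pp_hp A B hm i k)
  have e : FB B n k = (c' - 1) • (-(Gf g k n)) := congrArg (fun z : g.S.Q => (c' - 1) • z)
    (gf_mt g k n)
  have e' : A.F i n = (1 - c) • Gf g i n := rfl
  have e₁ : (1 - c) / c = c' - 1 := by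
    field_simp
    linear_combination -cc
  have e₂ : c' * (1 - c) = c' - 1 := by linear_combination -cc
  rw [e, e', h₁, h₁, e₁, smul_smul, e₂, ← smul_sub, map_smul, ← smul_add, gf_dif g i n k n,
    sub_self, map_zero, map_zero]
  simp only [map_sub]
  congr 1
  ring

/-- The composition of `O(-Δ)` with `O(Δ)`. -/
theorem pair2 {c c' : ℂ} (cc : c * c' = 1) (hc : c ≠ 0) (hc' : c' ≠ 0)
    (h₁ : ∀ i : Ix, T.eta (tn i) = ((c - 1) / c) • (g.h i - g.h n)) (h₂) (h₃) (h₄) :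
    Nonempty (Pair (kdI g c hc h₁ h₂).ker (kdK (mt g) c' hc' h₃ h₄).ker) := by
  let A := kdI g c hc h₁ h₂
  let B : KD (sw g.S) c' := kdK (mt g) c' hc' h₃ h₄
  have hm : ∀ i j k κ l, ∃ ζ, g.S.emb (sup i k) j ζ = A.e i j κ * eB B j k l :=
    fun i j k κ l => mul_IK g (A.e_mem i j κ) ((KK_mt g).1 (B.e_mem j k l))
  refine pair_of A B cc hm (fun i k => ?_) (mul_one _) fun i k =>
    snake2 g A.ker B.ker A.e (eB B) A.e_inj B.e_inj A.e_r (eB_l B) (fun _ _ _ => rfl)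
      (fun _ _ _ => rfl) A.e_range (fun j k q => (B.e_range j k q).trans (KK_mt g)) i k
      (pp A B i k) (pp_m A B i k) (pp_hp A B hm i k)
  have e : FB B n k = (1 - c') • (-(Gf g k n)) := congrArg (fun z : g.S.Q => (1 - c') • z)
    (gf_mt g k n)
  have e' : A.F i n = (c - 1) • Gf g i n := rfl
  have e₁ : (c - 1) / c = 1 - c' := by
    field_simp
    linear_combination cc
  have e₂ : c' * (c - 1) = 1 - c' := by linear_combination cc
  rw [e, e', h₁, h₁, e₁, smul_smul, e₂, ← smul_sub, map_smul, ← smul_add, gf_dif g i n k n,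
    sub_self, map_zero, map_zero]
  simp only [map_sub]
  congr 1
  ring

/-- **The kernels and the pairings.** -/
theorem muk : MUK := by
  intro T T' c g hc h₁ h₂
  have hc' : c⁻¹ ≠ 0 := inv_ne_zero hc
  have k₁ : ∀ i : Ix, T'.eta (tn i) = ((c⁻¹ - 1) / c⁻¹) • ((mt g).h i - (mt g).h n) := by
    intro i
    have e : (c⁻¹ - 1) / c⁻¹ = 1 - c := by field_simp
    rw [h₂, e, map_sub]
    rfl
  have e0 : ∀ i : Ix, (mt (mt g)).h i = g.h i := fun i => (g.κ.k n).symm_apply_apply _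
  have k₂ : ∀ i : Ix, T.eta (tn i) = (c⁻¹ - 1) • (mt g).κ.k n ((mt g).h i - (mt g).h n) := by
    intro i
    have e : (1 - c) / c = c⁻¹ - 1 := by field_simp
    rw [h₁, e, map_sub, ← e0, ← e0]
    rfl
  have k₃ : ∀ i : Ix, T.eta (tn i) = ((1 - c) / c) • ((mt (mt g)).h i - (mt (mt g)).h n) := by
    intro i
    rw [e0, e0, h₁]
  have k₄ : ∀ i : Ix, T'.eta (tn i) =
      (1 - c) • (mt (mt g)).κ.k n ((mt (mt g)).h i - (mt (mt g)).h n) := by
    intro i
    rw [e0, e0, h₂]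
    rfl
  exact ⟨_, _, _, pair1 g (mul_inv_cancel₀ hc) hc hc' h₁ h₂ k₁ k₂,
    pair2 (mt g) (inv_mul_cancel₀ hc) hc' hc k₁ k₂ k₃ k₄⟩

end

end Vale.Agent.P286ET5
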