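import Vale.Agent.P286ET5.Ker

/-!
# The kernels `O(Δ)` and `O(-Δ)`
-/

namespace Vale.Agent.P286ET5

open CategoryTheory TensorProduct Vale.Agent.P286ET Vale.Agent.P286ET6 Ix

noncomputable section

variable {T T' : TDat Ix} (g : Mg T T')

/-- Functions with at most a simple pole along the diagonal. -/
def KK (i j : Ix) : Submodule ℂ g.S.Q where
  carrier := {q | ∃ α β, q = g.S.emb i j α + g.S.emb i j β * Gf g i j}
  add_mem' := by
    rintro _ _ ⟨α, β, rfl⟩ ⟨α', β', rfl⟩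
    exact ⟨α + α', β + β', by rw [map_add, map_add]; ring⟩
  zero_mem' := ⟨0, 0, by simp⟩
  smul_mem' := by
    rintro z _ ⟨α, β, rfl⟩
    exact ⟨z • α, z • β, by rw [map_smul, map_smul, smul_add, smul_mul_assoc]⟩

/-- Functions which vanish on the diagonal. -/
def II (i j : Ix) : Submodule ℂ g.S.Q where
  carrier := {q | ∃ ξ, g.κ.mul i j ξ = 0 ∧ g.S.emb i j ξ = q}
  add_mem' := by
    rintro _ _ ⟨ξ, h, rfl⟩ ⟨ξ', h', rfl⟩
    exact ⟨ξ + ξ', by rw [map_add, h, h', add_zero], map_add _ _ _⟩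
  zero_mem' := ⟨0, map_zero _, map_zero _⟩
  smul_mem' := by
    rintro z _ ⟨ξ, h, rfl⟩
    exact ⟨z • ξ, by rw [map_smul, h, smul_zero], map_smul _ _ _⟩

theorem mem_KK {i j : Ix} {q : g.S.Q} :
    q ∈ KK g i j ↔ ∃ α β, q = g.S.emb i j α + g.S.emb i j β * Gf g i j := Iff.rfl

theorem mem_II {i j : Ix} {q : g.S.Q} :
    q ∈ II g i j ↔ ∃ ξ, g.κ.mul i j ξ = 0 ∧ g.S.emb i j ξ = q := Iff.rfl

theorem KK_res {i j : Ix} {q : g.S.Q} : q ∈ KK g i j ↔ ∃ ρ, Res g i j q ρ :=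
  ⟨fun ⟨α, β, h⟩ => ⟨_, α, β, h, rfl⟩, fun ⟨_, α, β, h, _⟩ => ⟨α, β, h⟩⟩

theorem KK_mt {i j : Ix} {q : g.S.Q} : q ∈ KK (mt g) j i ↔ q ∈ KK g i j := by
  constructor
  · rintro ⟨α, β, h⟩
    obtain ⟨α, rfl⟩ := (cm (T.R i) (T'.R j)).surjective α
    obtain ⟨β, rfl⟩ := (cm (T.R i) (T'.R j)).surjective β
    rw [emb_mt, emb_mt, gf_mt] at h
    refine ⟨α, -β, ?_⟩
    rw [map_neg, neg_mul, ← mul_neg]
    exact h
  · rintro ⟨α, β, h⟩
    refine ⟨cm _ _ α, cm _ _ (-β), ?_⟩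
    rw [emb_mt, emb_mt, gf_mt, map_neg, h, ← neg_mul_neg (g.S.emb i j β)]
    rfl

theorem II_mt {i j : Ix} {q : g.S.Q} : q ∈ II (mt g) j i ↔ q ∈ II g i j := by
  constructor
  · rintro ⟨ξ, h, h'⟩
    obtain ⟨ξ, rfl⟩ := (cm (T.R i) (T'.R j)).surjective ξ
    rw [mul_mt, map_eq_zero_iff _ (g.κ.k n).injective] at h
    exact ⟨ξ, h, (emb_mt g i j ξ).symm.trans h'⟩
  · rintro ⟨ξ, h, h'⟩
    exact ⟨cm _ _ ξ, by rw [mul_mt, h, map_zero], (emb_mt g i j ξ).trans h'⟩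

theorem w_gf (i j : Ix) : g.S.w (Gf g i j) = - Gf g i j := by
  simp only [Gf, Sq.Gf]
  rw [map_add, map_sub, g.w_G, g.S.w_1, g.S.w_2, ← g.κ.k_w, g.w_h, g.w_h, map_neg, map_neg,
    map_neg]
  ring

theorem gf_dif (i j i' j' : Ix) : Gf g i j = Gf g i' j' +
    g.S.i2 (g.κ.k n (g.h j - g.h j')) - g.S.i1 (g.h i - g.h i') := by
  simp only [Gf, Sq.Gf, map_sub]
  ring

theorem tau_eta (T : TDat Ix) {i j : Ix} (u : i ⟶ j) :
    T.tau (tn j) (T.eta u) = T.eta (tn i) - T.eta (tn j) := by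
  rw [hom_eq (tn i) (u ≫ tn j), T.eta_comp, add_sub_cancel_right]

/-- Clearing denominators in the second variable. -/
theorem clear (i : Ix) {j j' : Ix} (v : j ⟶ j') (α : T.R i ⊗[ℂ] T'.R j') :
    ∃ m₀ : ℕ, ∀ m, m₀ ≤ m → ∃ β : T.R i ⊗[ℂ] T'.R j,
      ((1 : T.R i) ⊗ₜ[ℂ] T'.tau v (T'.s v)) ^ m * α = rs (𝟙 i) v β := by
  induction α using TensorProduct.induction_on with
  | zero => exact ⟨0, fun m _ => ⟨0, by simp⟩⟩
  | tmul x y =>
    obtain ⟨m₀, z, h⟩ := (T'.away v).surj y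
    refine ⟨m₀, fun m hm => ⟨x ⊗ₜ (T'.s v ^ (m - m₀) * z), ?_⟩⟩
    obtain ⟨k, rfl⟩ := Nat.exists_eq_add_of_le hm
    rw [rs_tmul, T.tau_id, map_mul, ← h, Algebra.TensorProduct.tmul_pow,
      Algebra.TensorProduct.tmul_mul_tmul, one_pow, one_mul, Nat.add_sub_cancel_left, map_pow,
      ← mul_assoc, ← pow_add, add_comm k m₀]
  | add α α' h h' =>
    obtain ⟨m₁, h⟩ := h
    obtain ⟨m₂, h'⟩ := h'
    refine ⟨max m₁ m₂, fun m hm => ?_⟩
    obtain ⟨β, e⟩ := h m ((le_max_left _ _).trans hm)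
    obtain ⟨β', e'⟩ := h' m ((le_max_right _ _).trans hm)
    exact ⟨β + β', by rw [mul_add, map_add, e, e']⟩

theorem clear_emb (i : Ix) {j j' : Ix} (v : j ⟶ j') {α : T.R i ⊗[ℂ] T'.R j'}
    {β : T.R i ⊗[ℂ] T'.R j} {m : ℕ}
    (e : ((1 : T.R i) ⊗ₜ[ℂ] T'.tau v (T'.s v)) ^ m * α = rs (𝟙 i) v β) :
    g.S.i2 (T'.tau (tn j) (T'.s v)) ^ m * g.S.emb i j' α = g.S.emb i j β := by
  rw [← emb_rs g (𝟙 i) v β, ← e, map_mul, map_pow, emb_right, tau_tau]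

/-- The kernel `O(Δ)`. -/
def kdK (c : ℂ) (hc : c ≠ 0) (h₁ : ∀ i : Ix, T.eta (tn i) = ((1 - c) / c) • (g.h i - g.h n))
    (h₂ : ∀ i : Ix, T'.eta (tn i) = (1 - c) • g.κ.k n (g.h i - g.h n)) : KD g.S c where
  P := KK g
  F i j := (1 - c) • Gf g i j
  ε := 1
  εε := one_mul 1
  einj := emb_inj g
  mul i j γ := by
    rintro _ ⟨α, β, rfl⟩
    exact ⟨γ * α, γ * β, by rw [map_mul, map_mul]; ring⟩
  mono u v q hq := by
    obtain ⟨ρ, h⟩ := (KK_res g).1 hq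
    exact (KK_res g).2 ⟨ρ, h.mono u v⟩
  D_mem i j := by
    rintro _ ⟨α, β, rfl⟩
    obtain ⟨ζ, h⟩ := g.dG i j
    obtain ⟨α', β', h'⟩ := g.GG i j
    refine ⟨c • dL T T' i j α + dR T T' i j α + β * (c • ζ + (1 - c) • α'),
      (1 - c) • α + c • dL T T' i j β + dR T T' i j β + (1 - c) • (β * β'), ?_⟩
    simp only [map_add, map_mul, map_smul, Derivation.leibniz, d1_emb, d2_emb, ← h]
    simp only [smul_eq_mul, Algebra.smul_def, map_sub, map_one, Gf]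
    linear_combination (1 - algebraMap ℂ g.S.Q c) * g.S.emb i j β * h'
  w_mem i j := by
    rintro _ ⟨α, β, rfl⟩
    refine ⟨wB T T' i j α, - wB T T' i j β, ?_⟩
    rw [map_add, map_mul, w_emb, w_emb, w_gf, map_neg]
    ring
  w_F i j := by rw [map_smul, w_gf, smul_neg]
  F_sub {i i' j j'} u v := by
    have e : c * ((1 - c) / c) = 1 - c := by field_simp
    rw [tau_eta, tau_eta, h₁, h₁, h₂, h₂, ← smul_sub, ← smul_sub, map_smul, map_smul, smul_smul,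
      e, gf_dif g i j i' j', ← map_sub, sub_sub_sub_cancel_right, sub_sub_sub_cancel_right,
      smul_sub, smul_add]
  loc i j j' v := by
    rintro _ ⟨α, β, rfl⟩
    obtain ⟨γ, hγ⟩ := gf_sub (g := g) (𝟙 i) v
    obtain ⟨m₁, h⟩ := clear i v (α - β * γ)
    obtain ⟨m₂, h'⟩ := clear i v β
    obtain ⟨α', e⟩ := h _ (le_max_left m₁ m₂)
    obtain ⟨β', e'⟩ := h' _ (le_max_right m₁ m₂)
    refine ⟨max m₁ m₂, α', β', ?_⟩
    rw [← clear_emb g i v e, ← clear_emb g i v e', hγ, map_sub, map_mul]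
    ring
  inv i j := by
    obtain ⟨ξ, ζ, k₁, k₂, k₃⟩ := g.one i j
    have k₄ : g.κ.mul i j (1 - ζ) = 0 := by rw [map_sub, map_one, k₃, sub_self]
    have key : ∀ η, g.κ.mul i j η = 0 → ∀ q ∈ KK g i j, ∃ α, g.S.emb i j α = g.S.emb i j η * q := by
      intro η hη q hq
      obtain ⟨ρ, h⟩ := (KK_res g).1 hq
      have h' := h.mul η
      rw [hη, zero_mul] at h'
      exact Res.zero_iff.1 h'
    refine ⟨g.S.emb i j ξ, g.S.emb i j (1 - ζ), Gf g i j, 1, ⟨0, 1, by simp⟩, ⟨1, 0, by simp⟩,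
      ?_, key ξ k₁, key _ k₄⟩
    rw [map_sub, map_one, k₂]
    ring

/-- The kernel `O(-Δ)`. -/
def kdI (c : ℂ) (hc : c ≠ 0) (h₁ : ∀ i : Ix, T.eta (tn i) = ((c - 1) / c) • (g.h i - g.h n))
    (h₂ : ∀ i : Ix, T'.eta (tn i) = (c - 1) • g.κ.k n (g.h i - g.h n)) : KD g.S c where
  P := II g
  F i j := (c - 1) • Gf g i j
  ε := -1
  εε := by ring
  einj := emb_inj g
  mul i j γ := by
    rintro _ ⟨ξ, h, rfl⟩
    exact ⟨γ * ξ, by rw [map_mul, h, mul_zero], map_mul _ _ _⟩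
  mono u v := by
    rintro _ ⟨ξ, h, rfl⟩
    exact ⟨rs u v ξ, (mul_rs g u v ξ).trans h, emb_rs g u v ξ⟩
  D_mem i j := by
    rintro _ ⟨ξ, h, rfl⟩
    obtain ⟨ζ, k₁, k₂⟩ := g.IG i j ξ h
    have k₃ := dd_mul g.κ i j ξ
    rw [h, map_zero] at k₃
    refine ⟨c • dL T T' i j ξ + dR T T' i j ξ + (c - 1) • ζ, ?_, ?_⟩
    · change g.κ.mul i j ζ = g.κ.mul i j (dR T T' i j ξ) at k₂
      simp only [map_add, map_smul, k₂]
      simp only [Algebra.smul_def, map_sub, map_one]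
      linear_combination (- algebraMap ℂ (T.R n) c) * k₃
    · simp only [map_add, map_smul, d1_emb, d2_emb, k₁, smul_mul_assoc]
      rw [mul_comm]
  w_mem i j := by
    rintro _ ⟨ξ, h, rfl⟩
    exact ⟨wB T T' i j ξ, by rw [← w_mul, h, map_zero], (w_emb g.S i j ξ).symm⟩
  w_F i j := by rw [map_smul, w_gf, smul_neg]
  F_sub {i i' j j'} u v := by
    have e : c * ((c - 1) / c) = c - 1 := by field_simp
    rw [tau_eta, tau_eta, h₁, h₁, h₂, h₂, ← smul_sub, ← smul_sub, map_smul, map_smul, smul_smul,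
      e, gf_dif g i j i' j', ← map_sub, sub_sub_sub_cancel_right, sub_sub_sub_cancel_right,
      smul_sub, smul_add]
  loc i j j' v := by
    rintro _ ⟨ξ, h, rfl⟩
    obtain ⟨m, h'⟩ := clear i v ξ
    obtain ⟨β, e⟩ := h' m le_rfl
    refine ⟨m, β, ?_, (clear_emb g i v e).symm⟩
    rw [← mul_rs g (𝟙 i) v β, ← e, map_mul, h, mul_zero]
  inv i j := by
    obtain ⟨ξ, ζ, k₁, k₂, k₃⟩ := g.one i j
    have k₄ : g.κ.mul i j (1 - ζ) = 0 := by rw [map_sub, map_one, k₃, sub_self]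
    refine ⟨Gf g i j, 1, g.S.emb i j ξ, g.S.emb i j (1 - ζ), ⟨ξ, k₁, rfl⟩, ⟨_, k₄, rfl⟩, ?_, ?_, ?_⟩
    · rw [map_sub, map_one, k₂]
      ring
    · rintro _ ⟨η, h, rfl⟩
      obtain ⟨ζ', h', -⟩ := g.IG i j η h
      exact ⟨ζ', h'.trans (mul_comm _ _)⟩
    · rintro _ ⟨η, -, rfl⟩
      exact ⟨η, (one_mul _).symm⟩

end

end Vale.Agent.P286ET5
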