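import Vale.Agent.P286ET5.Swap

/-!
# Kernels which are spaces of functions on the square
-/

namespace Vale.Agent.P286ET5

open CategoryTheory TensorProduct Vale.Agent.P286ET Vale.Agent.P286ET6 Ix

noncomputable section

section SM

variable {A B Q : Type} [CommRing A] [Algebra ℂ A] [CommRing B] [Algebra ℂ B] [CommRing Q]
  [Algebra ℂ Q]

/-- The module structure on a stable subspace. -/
@[reducible] def smod (φ : A →ₐ[ℂ] Q) (P : Submodule ℂ Q) (h : ∀ x, ∀ q ∈ P, φ x * q ∈ P) :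
    Module A P where
  smul x k := ⟨φ x * k.1, h x _ k.2⟩
  one_smul k := Subtype.ext (show φ 1 * k.1 = k.1 by rw [map_one, one_mul])
  mul_smul x y k := Subtype.ext
    (show φ (x * y) * k.1 = φ x * (φ y * k.1) by rw [map_mul, mul_assoc])
  smul_zero x := Subtype.ext (mul_zero (φ x))
  smul_add x k k' := Subtype.ext (mul_add (φ x) k.1 k'.1)
  add_smul x y k := Subtype.ext
    (show φ (x + y) * k.1 = φ x * k.1 + φ y * k.1 by rw [map_add, add_mul])
  zero_smul k := Subtype.ext (show φ 0 * k.1 = 0 by rw [map_zero, zero_mul])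

theorem smod_tower (φ : A →ₐ[ℂ] Q) (P : Submodule ℂ Q) (h : ∀ x, ∀ q ∈ P, φ x * q ∈ P) :
    letI := smod φ P h
    IsScalarTower ℂ A P := by
  let _ := smod φ P h
  exact ⟨fun z x k => Subtype.ext
    (show φ (z • x) * k.1 = z • (φ x * k.1) by rw [map_smul, smul_mul_assoc])⟩

/-- The bimodule defined by a stable subspace. -/
def bm (φ : A →ₐ[ℂ] Q) (ψ : B →ₐ[ℂ] Q) (P : Submodule ℂ Q) (h : ∀ x, ∀ q ∈ P, φ x * q ∈ P)
    (h' : ∀ y, ∀ q ∈ P, ψ y * q ∈ P) : BM A B :=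
  letI := smod φ P h
  letI := smod ψ P h'
  { V := P
    tl := smod_tower φ P h
    tr := smod_tower ψ P h'
    cm := ⟨fun x y k => Subtype.ext
      (show φ x * (ψ y * k.1) = ψ y * (φ x * k.1) by ring)⟩ }

/-- An invertible module over the tensor product is flat over the first factor. -/
theorem flat_inv (φ : A →ₐ[ℂ] Q) (P : Submodule ℂ Q) (h : ∀ x, ∀ q ∈ P, φ x * q ∈ P)
    (E : A ⊗[ℂ] B →ₐ[ℂ] Q) (hE : Function.Injective E) (hφ : ∀ x, E (x ⊗ₜ 1) = φ x)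
    (hm : ∀ α, ∀ q ∈ P, E α * q ∈ P) {u₁ u₂ v₁ v₂ : Q} (h₁ : v₁ ∈ P) (h₂ : v₂ ∈ P)
    (e : u₁ * v₁ + u₂ * v₂ = 1) (k₁ : ∀ q ∈ P, ∃ α, E α = u₁ * q)
    (k₂ : ∀ q ∈ P, ∃ α, E α = u₂ * q) :
    letI := smod φ P h
    Module.Flat A P := by
  let _ := smod φ P h
  have hs : ∀ (x : A) (α : A ⊗[ℂ] B), E (x • α) = φ x * E α := by
    intro x α
    rw [Algebra.smul_def, map_mul, ← hφ]
    rfl
  choose f₁ hf₁ using k₁
  choose f₂ hf₂ using k₂
  let i : P →ₗ[A] (A ⊗[ℂ] B) × (A ⊗[ℂ] B) :=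
    { toFun := fun q => (f₁ q.1 q.2, f₂ q.1 q.2)
      map_add' := fun q q' => Prod.ext
        (hE (by
          simp only [Prod.fst_add, map_add, hf₁, Submodule.coe_add]
          ring))
        (hE (by
          simp only [Prod.snd_add, map_add, hf₂, Submodule.coe_add]
          ring))
      map_smul' := fun x q => Prod.ext
        (hE (by
          simp only [Prod.smul_fst, RingHom.id_apply, hs, hf₁]
          change u₁ * (φ x * q.1) = _
          ring))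
        (hE (by
          simp only [Prod.smul_snd, RingHom.id_apply, hs, hf₂]
          change u₂ * (φ x * q.1) = _
          ring)) }
  let r : (A ⊗[ℂ] B) × (A ⊗[ℂ] B) →ₗ[A] P :=
    { toFun := fun α => ⟨E α.1 * v₁ + E α.2 * v₂, add_mem (hm _ _ h₁) (hm _ _ h₂)⟩
      map_add' := fun α β => Subtype.ext (by
        simp only [Prod.fst_add, Prod.snd_add, map_add, Submodule.coe_add]
        ring)
      map_smul' := fun x α => Subtype.ext (by
        change E (x • α.1) * v₁ + E (x • α.2) * v₂ = φ x * (E α.1 * v₁ + E α.2 * v₂)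
        rw [hs, hs]
        ring) }
  refine Module.Flat.of_retract i r (LinearMap.ext fun q => Subtype.ext ?_)
  change E (f₁ q.1 q.2) * v₁ + E (f₂ q.1 q.2) * v₂ = q.1
  rw [hf₁, hf₂]
  linear_combination q.1 * e

end SM

variable {T T' : TDat Ix}

theorem semb_left (S : Sq T T') (i j : Ix) (x : T.R i) :
    S.emb i j (x ⊗ₜ 1) = S.i1 (T.tau (tn i) x) := by
  rw [semb_tmul, map_one, map_one, mul_one]

theorem semb_right (S : Sq T T') (i j : Ix) (y : T'.R j) :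
    S.emb i j (1 ⊗ₜ y) = S.i2 (T'.tau (tn j) y) := by
  rw [semb_tmul, map_one, map_one, one_mul]

/-- The data which define a kernel inside the functions on the square. -/
structure KD (S : Sq T T') (c : ℂ) where
  P : Ix → Ix → Submodule ℂ S.Q
  F : Ix → Ix → S.Q
  ε : ℂ
  εε : ε * ε = 1
  einj : ∀ i j, Function.Injective (S.emb i j)
  mul : ∀ (i j : Ix) (α : T.R i ⊗[ℂ] T'.R j), ∀ q ∈ P i j, S.emb i j α * q ∈ P i j
  mono : ∀ {i i' j j' : Ix}, (i ⟶ i') → (j ⟶ j') → P i j ≤ P i' j'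
  D_mem : ∀ i j, ∀ q ∈ P i j, c • S.d1 q + S.d2 q + F i j * q ∈ P i j
  w_mem : ∀ i j, ∀ q ∈ P i j, S.w q ∈ P i j
  w_F : ∀ i j, S.w (F i j) = - F i j
  F_sub : ∀ {i i' j j' : Ix} (u : i ⟶ i') (v : j ⟶ j'), F i j = F i' j' +
    S.i2 (T'.tau (tn j') (T'.eta v)) - c • S.i1 (T.tau (tn i') (T.eta u))
  loc : ∀ (i : Ix) {j j' : Ix} (v : j ⟶ j'), ∀ q ∈ P i j',
    ∃ m : ℕ, S.i2 (T'.tau (tn j) (T'.s v)) ^ m * q ∈ P i j
  inv : ∀ i j, ∃ u₁ u₂ v₁ v₂ : S.Q, v₁ ∈ P i j ∧ v₂ ∈ P i j ∧ u₁ * v₁ + u₂ * v₂ = 1 ∧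
    (∀ q ∈ P i j, ∃ α, S.emb i j α = u₁ * q) ∧ ∀ q ∈ P i j, ∃ α, S.emb i j α = u₂ * q

namespace KD

variable {S : Sq T T'} {c : ℂ} (A : KD S c)

theorem ml (i j : Ix) (x : T.R i) : ∀ q ∈ A.P i j, (S.i1.comp (T.tau (tn i))) x * q ∈ A.P i j :=
  fun q hq => by
    have h := A.mul i j (x ⊗ₜ 1) q hq
    rwa [semb_left] at h

theorem mr (i j : Ix) (y : T'.R j) :
    ∀ q ∈ A.P i j, (S.i2.comp (T'.tau (tn j))) y * q ∈ A.P i j :=
  fun q hq => by
    have h := A.mul i j (1 ⊗ₜ y) q hq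
    rwa [semb_right] at h

/-- The bimodules. -/
def bi (i j : Ix) : BM (T.R i) (T'.R j) := bm _ _ (A.P i j) (A.ml i j) (A.mr i j)

/-- The inclusion in the ring of functions on the square. -/
def e (i j : Ix) : (A.bi i j).V →ₗ[ℂ] S.Q := (A.P i j).subtype

theorem e_inj (i j : Ix) : Function.Injective (A.e i j) := Subtype.val_injective

theorem e_mem (i j : Ix) (k : (A.bi i j).V) : A.e i j k ∈ A.P i j := Subtype.property k

theorem e_range (i j : Ix) (q : S.Q) : (∃ k, A.e i j k = q) ↔ q ∈ A.P i j :=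
  ⟨fun ⟨k, h⟩ => h ▸ A.e_mem i j k, fun h => ⟨⟨q, h⟩, rfl⟩⟩

theorem e_smul (i j : Ix) (z : ℂ) (k : (A.bi i j).V) : A.e i j (z • k) = z • A.e i j k := rfl

theorem e_l (i j : Ix) (x : T.R i) (k : (A.bi i j).V) :
    A.e i j (x • k) = S.i1 (T.tau (tn i) x) * A.e i j k := rfl

theorem e_r (i j : Ix) (y : T'.R j) (k : (A.bi i j).V) :
    A.e i j (y • k) = S.i2 (T'.tau (tn j) y) * A.e i j k := rfl

/-- The restriction maps. -/
def r {i i' j j' : Ix} (u : i ⟶ i') (v : j ⟶ j') : (A.bi i j).V →ₗ[ℂ] (A.bi i' j').V :=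
  Submodule.inclusion (A.mono u v)

theorem e_res {i i' j j' : Ix} (u : i ⟶ i') (v : j ⟶ j') (k : (A.bi i j).V) :
    A.e i' j' (A.r u v k) = A.e i j k := rfl

/-- The connection. -/
def D (i j : Ix) : (A.bi i j).V →ₗ[ℂ] (A.bi i j).V :=
  LinearMap.restrict (p := A.P i j) (q := A.P i j)
    (c • S.d1.toLinearMap + S.d2.toLinearMap + LinearMap.mulLeft ℂ (A.F i j)) (A.D_mem i j)

theorem e_D (i j : Ix) (k : (A.bi i j).V) : A.e i j (A.D i j k) =
    c • S.d1 (A.e i j k) + S.d2 (A.e i j k) + A.F i j * A.e i j k := rfl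

/-- The involution. -/
def w (i j : Ix) : (A.bi i j).V →ₗ[ℂ] (A.bi i j).V :=
  LinearMap.restrict (p := A.P i j) (q := A.P i j) (A.ε • S.w.toLinearMap)
    (fun q hq => Submodule.smul_mem _ _ (A.w_mem i j q hq))

theorem e_w (i j : Ix) (k : (A.bi i j).V) : A.e i j (A.w i j k) = A.ε • S.w (A.e i j k) := rfl

theorem flat (i j : Ix) : Module.Flat (T.R i) (A.bi i j).V := by
  obtain ⟨u₁, u₂, v₁, v₂, h₁, h₂, e, k₁, k₂⟩ := A.inv i j
  exact flat_inv _ (A.P i j) (A.ml i j) (S.emb i j) (A.einj i j) (semb_left S i j) (A.mul i j)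
    h₁ h₂ e k₁ k₂

/-- The kernel. -/
def ker : Ker T T' c where
  K := A.bi
  flat := A.flat
  r := A.r
  r_id _ _ _ := rfl
  r_comp _ _ _ _ _ := rfl
  r_l u v x k := A.e_inj _ _ (by rw [e_res, e_l, e_l, e_res, tau_tau])
  r_r u v y k := A.e_inj _ _ (by rw [e_res, e_r, e_r, e_res, tau_tau])
  D := A.D
  D_l i j x k := A.e_inj _ _ (by
    rw [map_add, e_smul, e_D, e_l, e_l, e_l, e_D, Derivation.leibniz, Derivation.leibniz,
      S.d11, S.d21, T.tau_dd]
    simp only [smul_eq_mul, Algebra.smul_def]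
    ring)
  D_r i j y k := A.e_inj _ _ (by
    rw [map_add, e_D, e_r, e_r, e_r, e_D, Derivation.leibniz, Derivation.leibniz,
      S.d12, S.d22, T'.tau_dd]
    simp only [smul_eq_mul, Algebra.smul_def]
    ring)
  r_D u v k := A.e_inj _ _ (by
    rw [map_sub, map_add, e_smul, e_res, e_D, e_D, e_l, e_r, e_res, A.F_sub u v]
    simp only [Algebra.smul_def]
    ring)
  w := A.w
  w_l i j x k := A.e_inj _ _ (by
    rw [e_w, e_l, e_l, e_w, map_mul, S.w_1, T.tau_w, mul_smul_comm])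
  w_r i j y k := A.e_inj _ _ (by
    rw [e_w, e_r, e_r, e_w, map_mul, S.w_2, T'.tau_w, mul_smul_comm])
  w_w i j k := A.e_inj _ _ (by
    rw [e_w, e_w, map_smul, S.w_w, smul_smul, A.εε, one_smul])
  w_D i j k := A.e_inj _ _ (by
    rw [map_neg, e_w, e_D, e_D, e_w, map_add, map_add, map_smul, map_mul, S.w_d1, S.w_d2, A.w_F,
      Derivation.map_smul, Derivation.map_smul]
    simp only [Algebra.smul_def]
    ring)
  r_w _ _ _ := rfl
  loc_inj i j j' v k k' h := A.e_inj _ _ (by rw [← A.e_res (𝟙 i) v k, h, e_res])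
  loc_surj i j j' v k' := by
    obtain ⟨m, h⟩ := A.loc i v _ (A.e_mem i j' k')
    refine ⟨m, ⟨_, h⟩, A.e_inj _ _ ?_⟩
    rw [e_r, map_pow, map_pow, tau_tau]
    rfl

end KD

end

end Vale.Agent.P286ET5
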