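import Vale.Agent.P286ET6.Kit

/-!
# Exchanging the two factors
-/

namespace Vale.Agent.P286ET5

open CategoryTheory TensorProduct Vale.Agent.P286ET Vale.Agent.P286ET6 Ix

noncomputable section

variable {T T' : TDat Ix}

/-- The derivation in the first variable. -/
def dL (T T' : TDat Ix) (i j : Ix) : T.R i ⊗[ℂ] T'.R j →ₗ[ℂ] T.R i ⊗[ℂ] T'.R j :=
  LinearMap.rTensor _ (T.dd i).toLinearMap

/-- The derivation in the second variable. -/
def dR (T T' : TDat Ix) (i j : Ix) : T.R i ⊗[ℂ] T'.R j →ₗ[ℂ] T.R i ⊗[ℂ] T'.R j :=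
  LinearMap.lTensor _ (T'.dd j).toLinearMap

/-- The involution in both variables. -/
def wB (T T' : TDat Ix) (i j : Ix) : T.R i ⊗[ℂ] T'.R j →ₐ[ℂ] T.R i ⊗[ℂ] T'.R j :=
  Algebra.TensorProduct.map (T.w i) (T'.w j)

theorem dL_tmul (i j : Ix) (x : T.R i) (y : T'.R j) :
    dL T T' i j (x ⊗ₜ y) = T.dd i x ⊗ₜ y := rfl

theorem dR_tmul (i j : Ix) (x : T.R i) (y : T'.R j) :
    dR T T' i j (x ⊗ₜ y) = x ⊗ₜ T'.dd j y := rfl

theorem wB_tmul (i j : Ix) (x : T.R i) (y : T'.R j) :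
    wB T T' i j (x ⊗ₜ y) = T.w i x ⊗ₜ T'.w j y := rfl

theorem semb_tmul (S : Sq T T') (i j : Ix) (x : T.R i) (y : T'.R j) :
    S.emb i j (x ⊗ₜ y) = S.i1 (T.tau (tn i) x) * S.i2 (T'.tau (tn j) y) := rfl

theorem d1_emb (S : Sq T T') (i j : Ix) (ξ : T.R i ⊗[ℂ] T'.R j) :
    S.d1 (S.emb i j ξ) = S.emb i j (dL T T' i j ξ) := by
  induction ξ using TensorProduct.induction_on with
  | zero => simp
  | tmul x y =>
    rw [dL_tmul, semb_tmul, semb_tmul, Derivation.leibniz, S.d11, S.d12, T.tau_dd, smul_zero,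
      zero_add, smul_eq_mul, mul_comm]
  | add ξ ξ' h h' => simp only [map_add, h, h']

theorem d2_emb (S : Sq T T') (i j : Ix) (ξ : T.R i ⊗[ℂ] T'.R j) :
    S.d2 (S.emb i j ξ) = S.emb i j (dR T T' i j ξ) := by
  induction ξ using TensorProduct.induction_on with
  | zero => simp
  | tmul x y =>
    rw [dR_tmul, semb_tmul, semb_tmul, Derivation.leibniz, S.d21, S.d22, T'.tau_dd, smul_zero,
      add_zero, smul_eq_mul]
  | add ξ ξ' h h' => simp only [map_add, h, h']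

theorem w_emb (S : Sq T T') (i j : Ix) (ξ : T.R i ⊗[ℂ] T'.R j) :
    S.w (S.emb i j ξ) = S.emb i j (wB T T' i j ξ) := by
  induction ξ using TensorProduct.induction_on with
  | zero => simp
  | tmul x y => rw [wB_tmul, semb_tmul, semb_tmul, map_mul, S.w_1, S.w_2, T.tau_w, T'.tau_w]
  | add ξ ξ' h h' => simp only [map_add, h, h']

theorem ks_dd (κ : Kap T T' 1) (i : Ix) (y : T'.R i) :
    (κ.k i).symm (T'.dd i y) = T.dd i ((κ.k i).symm y) := by
  apply (κ.k i).injective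
  have h := κ.k_dd i ((κ.k i).symm y)
  rw [AlgEquiv.apply_symm_apply, one_smul] at h
  rw [AlgEquiv.apply_symm_apply, h]

theorem ks_w (κ : Kap T T' 1) (i : Ix) (y : T'.R i) :
    (κ.k i).symm (T'.w i y) = T.w i ((κ.k i).symm y) := by
  apply (κ.k i).injective
  rw [AlgEquiv.apply_symm_apply, κ.k_w, AlgEquiv.apply_symm_apply]

theorem ks_tau' (κ : Kap T T' 1) {i j : Ix} (u : i ⟶ j) (y : T'.R i) :
    (κ.k j).symm (T'.tau u y) = T.tau u ((κ.k i).symm y) := by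
  apply (κ.k j).injective
  rw [AlgEquiv.apply_symm_apply, κ.k_tau, AlgEquiv.apply_symm_apply]

theorem kmul_tmul (κ : Kap T T' 1) (i j : Ix) (x : T.R i) (y : T'.R j) :
    κ.mul i j (x ⊗ₜ y) = T.tau (tn i) x * (κ.k n).symm (T'.tau (tn j) y) := rfl

theorem dd_mul (κ : Kap T T' 1) (i j : Ix) (ξ : T.R i ⊗[ℂ] T'.R j) :
    T.dd n (κ.mul i j ξ) = κ.mul i j (dL T T' i j ξ) + κ.mul i j (dR T T' i j ξ) := by
  induction ξ using TensorProduct.induction_on with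
  | zero => simp
  | tmul x y =>
    rw [dL_tmul, dR_tmul, kmul_tmul, kmul_tmul, kmul_tmul, Derivation.leibniz, T.tau_dd,
      T'.tau_dd, ks_dd, smul_eq_mul, smul_eq_mul]
    ring
  | add ξ ξ' h h' =>
    simp only [map_add, h, h']
    ring

theorem w_mul (κ : Kap T T' 1) (i j : Ix) (ξ : T.R i ⊗[ℂ] T'.R j) :
    T.w n (κ.mul i j ξ) = κ.mul i j (wB T T' i j ξ) := by
  induction ξ using TensorProduct.induction_on with
  | zero => simp
  | tmul x y => rw [wB_tmul, kmul_tmul, kmul_tmul, map_mul, T.tau_w, T'.tau_w, ks_w]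
  | add ξ ξ' h h' => simp only [map_add, h, h']

/-- The inverse isomorphism. -/
def ksymm (κ : Kap T T' 1) : Kap T' T 1 where
  k i := (κ.k i).symm
  k_tau u r := ks_tau' κ u r
  k_dd i r := by rw [one_smul, ks_dd]
  k_w i r := ks_w κ i r

/-- The exchange of the factors of a tensor product. -/
abbrev cm (A B : Type) [CommRing A] [CommRing B] [Algebra ℂ A] [Algebra ℂ B] :
    A ⊗[ℂ] B ≃ₐ[ℂ] B ⊗[ℂ] A := Algebra.TensorProduct.comm ℂ A B

/-- The square with the two factors exchanged. -/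
def sw (S : Sq T T') : Sq T' T where
  Q := S.Q
  i1 := S.i2
  i2 := S.i1
  inj := by
    have h : ∀ ξ, Algebra.TensorProduct.productMap S.i2 S.i1 ξ =
        Algebra.TensorProduct.productMap S.i1 S.i2 (cm _ _ ξ) := by
      intro ξ
      induction ξ using TensorProduct.induction_on with
      | zero => simp
      | tmul x y => simp [mul_comm]
      | add ξ ξ' h h' => simp only [map_add, h, h']
    intro ξ ξ' e
    rw [h, h] at e
    exact (cm _ _).injective (S.inj e)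
  d1 := S.d2
  d2 := S.d1
  d11 := S.d22
  d12 := S.d21
  d21 := S.d12
  d22 := S.d11
  w := S.w
  w_w := S.w_w
  w_1 := S.w_2
  w_2 := S.w_1
  w_d1 := S.w_d2
  w_d2 := S.w_d1

theorem emb_sw (S : Sq T T') (i j : Ix) (ξ : T.R i ⊗[ℂ] T'.R j) :
    (sw S).emb j i (cm _ _ ξ) = S.emb i j ξ := by
  induction ξ using TensorProduct.induction_on with
  | zero => simp only [map_zero]; rfl
  | tmul x y => exact mul_comm (S.i2 _) (S.i1 _)
  | add ξ ξ' h h' => simp only [map_add, h, h']; rfl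

theorem mul_sw (κ : Kap T T' 1) (i j : Ix) (ξ : T.R i ⊗[ℂ] T'.R j) :
    (ksymm κ).mul j i (cm _ _ ξ) = κ.k n (κ.mul i j ξ) := by
  induction ξ using TensorProduct.induction_on with
  | zero => simp
  | tmul x y =>
    rw [kmul_tmul, map_mul, AlgEquiv.apply_symm_apply, mul_comm]
    rfl
  | add ξ ξ' h h' => simp only [map_add, h, h']

theorem dR_cm (i j : Ix) (ξ : T.R i ⊗[ℂ] T'.R j) :
    dR T' T j i (cm _ _ ξ) = cm _ _ (dL T T' i j ξ) := by
  induction ξ using TensorProduct.induction_on with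
  | zero => simp
  | tmul x y => rfl
  | add ξ ξ' h h' => simp only [map_add, h, h']

theorem gf_sw (S : Sq T T') (κ : Kap T T' 1) (G : S.Q) (h : Ix → T.R n) (i j : Ix) :
    (sw S).Gf (ksymm κ) (-G : S.Q) (fun i => κ.k n (h i)) j i = (-(S.Gf κ G h i j) : S.Q) := by
  have e : ((ksymm κ).k n) (κ.k n (h i)) = h i := (κ.k n).symm_apply_apply _
  simp only [Sq.Gf, e]
  change (-G - S.i2 _ + S.i1 _ : S.Q) = _
  ring

/-- The trace on the second model. -/
def trt (g : Mg T T') : Tr T' (g.κ.k n (g.h b) - g.κ.k n (g.h a)) where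
  tr := g.tr.tr ∘ₗ (g.κ.k n).symm.toLinearMap
  tr_a r := by
    change g.tr.tr ((g.κ.k n).symm _) = 0
    rw [ks_tau, g.tr.tr_a]
  tr_b r := by
    change g.tr.tr ((g.κ.k n).symm _) = 0
    rw [ks_tau, g.tr.tr_b]
  tr_h := by
    change g.tr.tr ((g.κ.k n).symm _) = 1
    rw [← map_sub, AlgEquiv.symm_apply_apply, g.tr.tr_h]
  tr_ker r h := by
    obtain ⟨x, y, e⟩ := g.tr.tr_ker ((g.κ.k n).symm r) h
    refine ⟨g.κ.k a x, g.κ.k b y, ?_⟩
    rw [← g.κ.k_tau, ← g.κ.k_tau, ← map_sub, ← e, AlgEquiv.apply_symm_apply]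
  tr_dd r := by
    change g.tr.tr ((g.κ.k n).symm _) = 0
    rw [ks_dd, g.tr.tr_dd]
  tr_w r := by
    change g.tr.tr ((g.κ.k n).symm _) = - g.tr.tr ((g.κ.k n).symm _)
    rw [ks_w, g.tr.tr_w]
  h0 x y e := by
    obtain ⟨z, hz⟩ := g.tr.h0 ((g.κ.k a).symm x) ((g.κ.k b).symm y)
      (by rw [← ks_tau, ← ks_tau, e])
    refine ⟨z, (g.κ.k a).symm.injective ?_⟩
    rw [hz, AlgEquiv.commutes]

/-- The data with the two factors exchanged. -/
def mt (g : Mg T T') : Mg T' T where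
  κ := ksymm g.κ
  inj := inj' g
  gen r := by
    obtain ⟨ξ, h⟩ := mul_surj g b a ((g.κ.k n).symm r)
    refine ⟨cm _ _ ξ, ?_⟩
    rw [mul_sw, h]
    exact (congrArg (g.κ.k n) (tau_n T _)).trans ((g.κ.k n).apply_symm_apply r)
  h i := g.κ.k n (g.h i)
  w_h i := by rw [← g.κ.k_w, g.w_h, map_neg]
  tr := trt g
  S := sw g.S
  G := (-g.G : g.S.Q)
  w_G := by
    change g.S.w (-g.G) = - - g.G
    rw [map_neg, g.w_G]
  IG i j ξ hξ := by
    obtain ⟨ξ, rfl⟩ := (cm (T.R j) (T'.R i)).surjective ξ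
    rw [mul_sw, map_eq_zero_iff _ (g.κ.k n).injective] at hξ
    obtain ⟨ζ, h1, h2⟩ := g.IG j i ξ hξ
    refine ⟨cm _ _ (-ζ), ?_, ?_⟩
    · rw [emb_sw, emb_sw, gf_sw, map_neg, h1]
      exact (mul_neg _ _).symm
    · have h3 := dd_mul g.κ j i ξ
      rw [hξ, map_zero] at h3
      change _ = (ksymm g.κ).mul i j (dR T' T i j (cm _ _ ξ))
      rw [dR_cm, mul_sw, mul_sw, map_neg, h2]
      congr 1
      change - g.κ.mul j i (dR T T' j i ξ) = _
      linear_combination h3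
  one i j := by
    obtain ⟨ξ, ζ, h1, h2, h3⟩ := g.one j i
    refine ⟨cm _ _ (-ξ), cm _ _ ζ, ?_, ?_, ?_⟩
    · rw [mul_sw, map_neg, h1, neg_zero, map_zero]
    · rw [emb_sw, emb_sw, gf_sw, map_neg, h2]
      exact (neg_mul_neg (g.S.emb j i ξ) _).symm
    · rw [mul_sw, h3, map_one]
  dG i j := by
    obtain ⟨ζ, h⟩ := g.dG j i
    refine ⟨cm _ _ (-ζ), ?_⟩
    rw [emb_sw, gf_sw, map_neg, ← h]
    change g.S.d2 (-_) + g.S.d1 (-_) = _
    rw [map_neg, map_neg]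
    ring
  GG i j := by
    obtain ⟨ζ, h⟩ := g.dG j i
    obtain ⟨α, β, h'⟩ := g.GG j i
    refine ⟨cm _ _ (α - ζ), cm _ _ (-β), ?_⟩
    rw [emb_sw, emb_sw, gf_sw, map_neg, map_sub]
    change g.S.d1 (-_) + (- _ * - _ : g.S.Q) = (_ + - _ * - _ : g.S.Q)
    rw [map_neg]
    linear_combination h' - h

theorem emb_mt (g : Mg T T') (i j : Ix) (ξ : T.R i ⊗[ℂ] T'.R j) :
    (mt g).S.emb j i (cm _ _ ξ) = g.S.emb i j ξ := emb_sw g.S i j ξ

theorem mul_mt (g : Mg T T') (i j : Ix) (ξ : T.R i ⊗[ℂ] T'.R j) :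
    (mt g).κ.mul j i (cm _ _ ξ) = g.κ.k n (g.κ.mul i j ξ) := mul_sw g.κ i j ξ

theorem gf_mt (g : Mg T T') (i j : Ix) : Gf (mt g) j i = (-(Gf g i j) : g.S.Q) :=
  gf_sw g.S g.κ g.G g.h i j

end

end Vale.Agent.P286ET5
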